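import Vale.Agent.P092.H45.Rp.P6
import Vale.Agent.P092.H268.Rp.Gr

/-!
P092, project RP (helper45), row P6 (torus, roots): without hypotheses.
-/

set_option linter.all false

open Module LieAlgebra

namespace Vale.Agent.P092.H45.Rp

open Vale.Agent.P092.H213.Rp

variable {k L : Type} [Field k] [CharZero k] [LieRing L] [LieAlgebra k L]

theorem jm [Module.Finite k L] [IsKilling k L] : JM k L :=
  fun s hs _ _ hx hn h0 => H268.Rp.jm_gr s hs hx hn h0

/-- **[RP-P6]** Roots relative to a maximal split torus. -/
theorem p6 {k : Type} [NontriviallyNormedField k] [CharZero k] {L : Type} [LieRing L]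
    [LieAlgebra k L] {n : ℕ} {G : Type} [Group G] [TopologicalSpace G]
    {b : Basis (Fin n) k L} {ρ : G →* Module.End k L} (hρ : RP b ρ) :
    ∃ (r : ℕ) (b' : Basis (Fin n) k L) (wt : Fin n → Fin r → ℤ) (E F H : Fin r → L),
      Rt b' wt E F H := by
  haveI : Module.Finite k L := Module.Finite.of_basis b
  haveI := hρ.simple
  exact p6_of jm hρ

end Vale.Agent.P092.H45.Rp
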