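import Vale.Agent.P092.H213.Rp.Defs
import Mathlib.LinearAlgebra.Eigenspace.Pi
import Mathlib.LinearAlgebra.Eigenspace.Semisimple
import Mathlib.LinearAlgebra.Eigenspace.Triangularizable

/-!
P092, project RP (helper45), row P6 (torus, roots), part 1: commuting split elements, weight bases.
-/

set_option linter.all false

open Module LieAlgebra

namespace Vale.Agent.P092.H45.Rp

open Vale.Agent.P092.H213.Rp

section lin

variable {k V : Type} [Field k] [AddCommGroup V] [Module k V] [FiniteDimensional k V]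

theorem max_eq {f : End k V} (h : ⨆ μ, f.eigenspace μ = ⊤) (μ : k) :
    f.maxGenEigenspace μ = f.eigenspace μ := by
  refine le_antisymm ?_ ((f.genEigenspace μ).monotone le_top)
  have h1 := Submodule.inf_iSup_genEigenspace (p := f.maxGenEigenspace μ) (f := f)
    (fun x hx => f.mapsTo_maxGenEigenspace_of_comm (Commute.refl f) μ hx) 1
  change f.maxGenEigenspace μ ⊓ ⨆ ν, f.eigenspace ν = _ at h1
  rw [h, inf_top_eq] at h1
  rw [h1]
  refine iSup_le fun ν => ?_
  by_cases hν : ν = μ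
  · rw [hν]; exact inf_le_right
  · refine le_trans ?_ bot_le
    have h2 : Disjoint (f.genEigenspace μ ⊤) (f.genEigenspace ν 1) :=
      f.disjoint_genEigenspace (Ne.symm hν) _ _
    exact h2.le_bot

/-- simultaneous diagonalization -/
theorem joint {ι : Type} (f : ι → End k V) (hc : ∀ i j, Commute (f i) (f j))
    (h : ∀ i, ⨆ μ, (f i).eigenspace μ = ⊤) :
    ⊤ ≤ Submodule.span k {y : V | ∃ l : ι → k, ∀ i, f i y = l i • y} := by
  have h1 := Module.End.iSup_iInf_maxGenEigenspace_eq_top_of_iSup_maxGenEigenspace_eq_top_of_commute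
    f (fun i j _ => hc i j) (fun i => by
      rw [eq_top_iff, ← h i]
      exact iSup_mono fun μ => ((f i).genEigenspace μ).monotone le_top)
  rw [← h1]
  refine iSup_le fun l => ?_
  intro y hy
  refine Submodule.subset_span ⟨l, fun i => ?_⟩
  have h2 := (Submodule.mem_iInf _).1 hy i
  rw [max_eq (h i)] at h2
  exact Module.End.mem_eigenspace_iff.1 h2

end lin

section

variable {k L : Type} [Field k] [LieRing L] [LieAlgebra k L]

variable (k) in
/-- diagonalizable elements -/
def Dg (h : L) : Prop := ⨆ μ : k, (ad k L h).eigenspace μ = ⊤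

variable (k) in
/-- all eigenvalues are rational -/
def Rat (h : L) : Prop := ∀ (μ : k) (y : L), y ≠ 0 → ⁅h, y⁆ = μ • y → ∃ q : ℚ, (q : k) = μ

theorem mem_eig {h y : L} {μ : k} : y ∈ (ad k L h).eigenspace μ ↔ ⁅h, y⁆ = μ • y :=
  Module.End.mem_eigenspace_iff

theorem _root_.Vale.Agent.P092.H213.Rp.Spl.dg {h : L} (hh : Spl k h) : Dg k h := by
  unfold Dg
  rw [eq_top_iff, ← hh]
  exact iSup_le fun i => le_iSup (fun μ : k => (ad k L h).eigenspace μ) (i : k)

theorem _root_.Vale.Agent.P092.H213.Rp.Spl.int {h : L} (hh : Spl k h) (μ : k) (y : L) (hy : y ≠ 0)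
    (hμ : ⁅h, y⁆ = μ • y) : ∃ n : ℤ, (n : k) = μ := by
  by_contra hcon
  push Not at hcon
  have h1 := (ad k L h).eigenspaces_iSupIndep μ
  have h2 : (⊤ : Submodule k L) ≤ ⨆ ν, ⨆ _ : ν ≠ μ, (ad k L h).eigenspace ν := by
    rw [← hh]
    refine iSup_le fun i => ?_
    exact le_iSup₂_of_le (i : k) (hcon i) le_rfl
  have h3 := h1.mono_right h2
  rw [disjoint_top] at h3
  exact hy (by
    have : y ∈ (ad k L h).eigenspace μ := mem_eig.2 hμ
    rwa [h3] at this)

theorem _root_.Vale.Agent.P092.H213.Rp.Spl.rat {h : L} (hh : Spl k h) : Rat k h := by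
  intro μ y hy hμ
  obtain ⟨n, hn⟩ := hh.int μ y hy hμ
  exact ⟨(n : ℚ), by rw [← hn]; exact Rat.cast_intCast n⟩

/-- A maximal commuting family of split elements, and a basis of weight vectors. -/
structure Sys {n r : ℕ} (b : Basis (Fin n) k L) (s : Fin r → L) (l : Fin n → Fin r → ℚ) : Prop where
  act : ∀ i j, ⁅s j, b i⁆ = ((l i j : ℚ) : k) • b i
  com : ∀ i j, ⁅s i, s j⁆ = 0
  li : LinearIndependent k s
  max : ∀ h : L, Dg k h → Rat k h → (∀ j, ⁅s j, h⁆ = 0) → h ∈ Submodule.span k (Set.range s)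

theorem dg_of_basis {n : ℕ} (b : Basis (Fin n) k L) {h : L}
    (hb : ∀ i, ∃ μ : k, ⁅h, b i⁆ = μ • b i) : Dg k h := by
  unfold Dg
  rw [eq_top_iff, ← b.span_eq, Submodule.span_le]
  rintro _ ⟨i, rfl⟩
  obtain ⟨μ, hμ⟩ := hb i
  exact Submodule.mem_iSup_of_mem μ (mem_eig.2 hμ)

/-- commuting split elements -/
def CS (k : Type) {L : Type} [Field k] [LieRing L] [LieAlgebra k L] (r : ℕ) : Prop :=
  ∃ s : Fin r → L, (∀ i j, ⁅s i, s j⁆ = 0) ∧ (∀ i, Dg k (s i)) ∧ (∀ i, Rat k (s i)) ∧
    LinearIndependent k s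

theorem exists_basis [Module.Finite k L] {n r : ℕ} (hn : finrank k L = n) (s : Fin r → L)
    (hc : ∀ i j, ⁅s i, s j⁆ = 0) (hd : ∀ i, Dg k (s i)) (hr : ∀ i, Rat k (s i)) :
    ∃ (b : Basis (Fin n) k L) (l : Fin n → Fin r → ℚ),
      ∀ i j, ⁅s j, b i⁆ = ((l i j : ℚ) : k) • b i := by
  classical
  have h1 := joint (fun i => ad k L (s i)) (fun i j => by
    refine LinearMap.ext fun y => ?_
    change ⁅s i, ⁅s j, y⁆⁆ = ⁅s j, ⁅s i, y⁆⁆
    rw [leibniz_lie (s i) (s j) y, hc i j, zero_lie, zero_add]) hd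
  let b0 := Basis.ofSpan h1
  haveI : Fintype ↑((linearIndepOn_empty k (id : L → L)).extend
      (Set.empty_subset {y : L | ∃ l : Fin r → k, ∀ i, (ad k L (s i)) y = l i • y})) :=
    FiniteDimensional.fintypeBasisIndex b0
  have hcard : Fintype.card ↑((linearIndepOn_empty k (id : L → L)).extend
      (Set.empty_subset {y : L | ∃ l : Fin r → k, ∀ i, (ad k L (s i)) y = l i • y})) = n := by
    rw [← finrank_eq_card_basis b0, hn]
  let b := b0.reindex (Fintype.equivFinOfCardEq hcard)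
  have h2 : ∀ i, ∃ l : Fin r → k, ∀ j, ⁅s j, b i⁆ = l j • b i := by
    intro i
    have h3 : b i ∈ {y : L | ∃ l : Fin r → k, ∀ i, (ad k L (s i)) y = l i • y} := by
      refine Basis.ofSpan_subset h1 ⟨(Fintype.equivFinOfCardEq hcard).symm i, ?_⟩
      rw [Basis.reindex_apply]
    exact h3
  choose l' hl' using h2
  have h3 : ∀ i j, ∃ q : ℚ, (q : k) = l' i j := fun i j =>
    hr j (l' i j) (b i) (b.ne_zero i) (hl' i j)
  choose l hl using h3
  exact ⟨b, l, fun i j => by rw [hl, hl']⟩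

/-- **Maximal split tori exist.** -/
theorem exists_sys [Module.Finite k L] {n : ℕ} (hn : finrank k L = n) {h0 : L} (hs : Spl k h0)
    (hne : h0 ≠ 0) : ∃ (r : ℕ) (b : Basis (Fin n) k L) (s : Fin r → L) (l : Fin n → Fin r → ℚ),
      0 < r ∧ Sys b s l := by
  classical
  have h1 : CS (L := L) k 1 := by
    refine ⟨fun _ => h0, fun _ _ => lie_self _, fun _ => hs.dg, fun _ => hs.rat, ?_⟩
    exact LinearIndependent.of_subsingleton 0 hne
  obtain ⟨r, hr0, hr, hr'⟩ : ∃ r, 0 < r ∧ CS (L := L) k r ∧ ¬ CS (L := L) k (r + 1) := by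
    by_contra hcon
    push Not at hcon
    have h2 : ∀ m, CS (L := L) k (m + 1) := by
      intro m
      induction m with
      | zero => exact h1
      | succ m ih => exact hcon (m + 1) (Nat.succ_pos m) ih
    obtain ⟨s, -, -, -, hli⟩ := h2 (finrank k L)
    have h3 := hli.fintype_card_le_finrank
    rw [Fintype.card_fin] at h3
    omega
  obtain ⟨s, hc, hd, hra, hli⟩ := hr
  obtain ⟨b, l, hb⟩ := exists_basis hn s hc hd hra
  refine ⟨r, b, s, l, hr0, hb, hc, hli, fun h hdh hrh hch => ?_⟩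
  by_contra hcon
  refine hr' ⟨Fin.cons h s, ?_, ?_, ?_, ?_⟩
  · intro i j
    refine Fin.cases ?_ (fun i => ?_) i <;> refine Fin.cases ?_ (fun j => ?_) j
    · simp
    · simp only [Fin.cons_zero, Fin.cons_succ]
      rw [← lie_skew, hch, neg_zero]
    · simp only [Fin.cons_zero, Fin.cons_succ]
      exact hch i
    · simp only [Fin.cons_succ]
      exact hc i j
  · intro i
    refine Fin.cases ?_ (fun i => ?_) i
    · simpa using hdh
    · simpa using hd i
  · intro i
    refine Fin.cases ?_ (fun i => ?_) i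
    · simpa using hrh
    · simpa using hra i
  · rw [linearIndependent_fin_cons]
    exact ⟨hli, hcon⟩

end

end Vale.Agent.P092.H45.Rp
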