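import Vale.Agent.P092.H45.Rp.A

/-!
P092, project RP (helper45), row P6 (torus, roots), part 2: weights of a maximal split torus,
coroots.
-/

set_option linter.all false

open Module LieAlgebra Matrix

namespace Vale.Agent.P092.H45.Rp

open Vale.Agent.P092.H213.Rp

variable {k L : Type} [Field k] [LieRing L] [LieAlgebra k L] {n r : ℕ}
  {b : Basis (Fin n) k L} {s : Fin r → L} {l : Fin n → Fin r → ℚ}

/-- the weight space -/
def V (k : Type) {L : Type} [Field k] [LieRing L] [LieAlgebra k L] {r : ℕ} (s : Fin r → L)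
    (m : Fin r → ℚ) : Submodule k L where
  carrier := {y | ∀ j, ⁅s j, y⁆ = ((m j : ℚ) : k) • y}
  add_mem' := fun {x y} hx hy j => by rw [lie_add, hx, hy, smul_add]
  zero_mem' := fun j => by rw [lie_zero, smul_zero]
  smul_mem' := fun c x hx j => by rw [lie_smul, hx, smul_comm]

theorem mem_V {m : Fin r → ℚ} {y : L} : y ∈ V k s m ↔ ∀ j, ⁅s j, y⁆ = ((m j : ℚ) : k) • y :=
  Iff.rfl

/-- the element of the torus with rational coordinates `c` -/
def T (k : Type) {L : Type} [Field k] [LieRing L] [LieAlgebra k L] {r : ℕ} (s : Fin r → L)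
    (c : Fin r → ℚ) : L := ∑ j, ((c j : ℚ) : k) • s j

theorem T_act [CharZero k] (c m : Fin r → ℚ) {y : L} (hy : y ∈ V k s m) :
    ⁅T k s c, y⁆ = ((c ⬝ᵥ m : ℚ) : k) • y := by
  unfold T
  rw [sum_lie, dotProduct, Rat.cast_sum, Finset.sum_smul]
  refine Finset.sum_congr rfl fun j _ => ?_
  rw [smul_lie, hy j, smul_smul, Rat.cast_mul]

theorem V_lie [CharZero k] {m m' : Fin r → ℚ} {x y : L} (hx : x ∈ V k s m) (hy : y ∈ V k s m') :
    ⁅x, y⁆ ∈ V k s (m + m') := by
  intro j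
  rw [leibniz_lie, hx j, hy j, smul_lie, lie_smul, ← add_smul, Pi.add_apply, Rat.cast_add]

theorem T_lie_T [CharZero k] (hs : ∀ i j, ⁅s i, s j⁆ = 0) (c c' : Fin r → ℚ) :
    ⁅T k s c, T k s c'⁆ = 0 := by
  unfold T
  rw [sum_lie]
  refine Finset.sum_eq_zero fun i _ => ?_
  rw [lie_sum]
  refine Finset.sum_eq_zero fun j _ => ?_
  rw [smul_lie, lie_smul, hs, smul_zero, smul_zero]

namespace Sys

variable (S : Sys b s l)
include S

theorem mem (i : Fin n) : b i ∈ V k s (l i) := fun j => S.act i j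

theorem repr_act (y : L) (i : Fin n) (j : Fin r) :
    b.repr ⁅s j, y⁆ i = ((l i j : ℚ) : k) * b.repr y i := by
  have h : (b.coord i) ∘ₗ ((ad k L (s j)) : L →ₗ[k] L) = ((l i j : ℚ) : k) • b.coord i := by
    refine b.ext fun i' => ?_
    change b.repr ⁅s j, b i'⁆ i = ((l i j : ℚ) : k) • b.repr (b i') i
    rw [S.act, map_smul, Finsupp.smul_apply, Basis.repr_self, smul_eq_mul, smul_eq_mul]
    by_cases hi : i' = i
    · subst hi; rfl
    · rw [Finsupp.single_eq_of_ne (Ne.symm hi), mul_zero, mul_zero]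
  exact LinearMap.congr_fun h y

theorem mem_iff [CharZero k] {m : Fin r → ℚ} {y : L} :
    y ∈ V k s m ↔ ∀ i, l i ≠ m → b.repr y i = 0 := by
  constructor
  · intro hy i hi
    by_contra h0
    refine hi (funext fun j => ?_)
    have h1 := S.repr_act y i j
    rw [hy j, map_smul, Finsupp.smul_apply, smul_eq_mul] at h1
    have h2 := mul_right_cancel₀ h0 h1
    exact (Rat.cast_injective h2).symm
  · intro h
    rw [← b.sum_repr y]
    refine Submodule.sum_mem _ fun i _ => ?_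
    by_cases hi : l i = m
    · rw [← hi]; exact Submodule.smul_mem _ _ (S.mem i)
    · rw [h i hi, zero_smul]; exact Submodule.zero_mem _

theorem exists_idx [CharZero k] {m : Fin r → ℚ} {y : L} (hy : y ∈ V k s m) (h0 : y ≠ 0) :
    ∃ i, l i = m := by
  by_contra hcon
  push Not at hcon
  refine h0 (b.repr.injective ?_)
  ext i
  rw [S.mem_iff.1 hy i (hcon i), map_zero, Finsupp.zero_apply]

theorem T_lie_basis [CharZero k] (c : Fin r → ℚ) (i : Fin n) :
    ⁅T k s c, b i⁆ = ((c ⬝ᵥ l i : ℚ) : k) • b i := T_act c (l i) (S.mem i)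

theorem dg (c : Fin r → ℚ) [CharZero k] : Dg k (T k s c) :=
  dg_of_basis b fun i => ⟨_, S.T_lie_basis c i⟩

/-- rational coordinates are separated by the weights -/
theorem sep [CharZero k] (hz : ∀ x : L, (∀ y : L, ⁅x, y⁆ = 0) → x = 0) {c : Fin r → k}
    (hc : ∀ i, ∑ j, c j * ((l i j : ℚ) : k) = 0) : c = 0 := by
  have h1 : ∑ j, c j • s j = 0 := by
    refine hz _ fun y => ?_
    rw [← b.sum_repr y, lie_sum]
    refine Finset.sum_eq_zero fun i _ => ?_
    rw [lie_smul, sum_lie]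
    have h2 : ∑ j, ⁅c j • s j, b i⁆ = (∑ j, c j * ((l i j : ℚ) : k)) • b i := by
      rw [Finset.sum_smul]
      refine Finset.sum_congr rfl fun j _ => ?_
      rw [smul_lie, S.act, smul_smul]
    rw [h2, hc, zero_smul, smul_zero]
  funext j
  exact (Fintype.linearIndependent_iff.1 S.li) c h1 j

theorem sepQ [CharZero k] (hz : ∀ x : L, (∀ y : L, ⁅x, y⁆ = 0) → x = 0) {c : Fin r → ℚ}
    (hc : ∀ i, c ⬝ᵥ l i = 0) : c = 0 := by
  have h1 := S.sep hz (c := fun j => (c j : k)) (fun i => by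
    have h2 := congrArg (Rat.cast : ℚ → k) (hc i)
    rw [dotProduct, Rat.cast_sum, Rat.cast_zero] at h2
    rw [← h2]
    exact Finset.sum_congr rfl fun j _ => (Rat.cast_mul _ _).symm)
  funext j
  have h2 := congrFun h1 j
  exact Rat.cast_injective (by rw [h2]; simp : ((c j : ℚ) : k) = ((0 : Fin r → ℚ) j : ℚ))

/-- a rational left inverse of the matrix of weights -/
theorem left_inv [CharZero k] (hz : ∀ x : L, (∀ y : L, ⁅x, y⁆ = 0) → x = 0) :
    ∃ Ψ : Fin r → Fin n → ℚ, ∀ j j', ∑ i, Ψ j i * l i j' = if j = j' then 1 else 0 := by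
  classical
  let Φ : (Fin r → ℚ) →ₗ[ℚ] (Fin n → ℚ) := LinearMap.pi fun i =>
    { toFun := fun c => c ⬝ᵥ l i
      map_add' := fun c c' => add_dotProduct _ _ _
      map_smul' := fun a c => smul_dotProduct _ _ _ }
  have hΦ : LinearMap.ker Φ = ⊥ := by
    rw [LinearMap.ker_eq_bot']
    intro c hc
    exact S.sepQ hz fun i => congrFun hc i
  obtain ⟨g, hg⟩ := Φ.exists_leftInverse_of_injective hΦ
  refine ⟨fun j i => g (Pi.single i 1) j, fun j j' => ?_⟩
  have h1 : g (Φ (Pi.single j' 1)) = Pi.single j' 1 := LinearMap.congr_fun hg _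
  have h2 : Φ (Pi.single j' 1) = ∑ i, l i j' • (Pi.single i 1 : Fin n → ℚ) := by
    rw [← pi_eq_sum_univ' (fun i => l i j')]
    funext i
    change Pi.single j' 1 ⬝ᵥ l i = l i j'
    rw [single_dotProduct, one_mul]
  rw [h2, map_sum] at h1
  have h3 := congrFun h1 j
  rw [Finset.sum_apply] at h3
  rw [Pi.single_apply] at h3
  rw [← h3]
  refine Finset.sum_congr rfl fun i _ => ?_
  rw [map_smul, Pi.smul_apply, smul_eq_mul, mul_comm]

theorem rat_coord [CharZero k] (hz : ∀ x : L, (∀ y : L, ⁅x, y⁆ = 0) → x = 0) {c : Fin r → k}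
    (hc : ∀ i, ∃ q : ℚ, (q : k) = ∑ j, c j * ((l i j : ℚ) : k)) :
    ∃ c' : Fin r → ℚ, ∀ j, ((c' j : ℚ) : k) = c j := by
  classical
  obtain ⟨Ψ, hΨ⟩ := S.left_inv hz
  choose q hq using hc
  refine ⟨fun j => ∑ i, Ψ j i * q i, fun j => ?_⟩
  rw [Rat.cast_sum]
  calc ∑ i, ((Ψ j i * q i : ℚ) : k) = ∑ i, ∑ j', ((Ψ j i * l i j' : ℚ) : k) * c j' := by
        refine Finset.sum_congr rfl fun i _ => ?_
        rw [Rat.cast_mul, hq, Finset.mul_sum]
        refine Finset.sum_congr rfl fun j' _ => ?_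
        rw [Rat.cast_mul]; ring
    _ = ∑ j', ((∑ i, Ψ j i * l i j' : ℚ) : k) * c j' := by
        rw [Finset.sum_comm]
        refine Finset.sum_congr rfl fun j' _ => ?_
        rw [Rat.cast_sum, Finset.sum_mul]
    _ = c j := by
        rw [Finset.sum_eq_single j]
        · rw [hΨ, if_pos rfl, Rat.cast_one, one_mul]
        · intro j' _ hj'
          rw [hΨ, if_neg (Ne.symm hj'), Rat.cast_zero, zero_mul]
        · intro h; exact absurd (Finset.mem_univ _) h

/-- split elements that commute with the torus are in the torus -/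
theorem mem_T [CharZero k] (hz : ∀ x : L, (∀ y : L, ⁅x, y⁆ = 0) → x = 0) {h : L}
    (hh : h ∈ V k s 0) (hs : Spl k h) : ∃ c : Fin r → ℚ, h = T k s c := by
  have h1 := S.max h hs.dg hs.rat (fun j => by
    rw [hh j, Pi.zero_apply, Rat.cast_zero, zero_smul])
  obtain ⟨c, hc⟩ := (Submodule.mem_span_range_iff_exists_fun k).1 h1
  have h2 : ∀ i, ⁅h, b i⁆ = (∑ j, c j * ((l i j : ℚ) : k)) • b i := by
    intro i
    rw [← hc, sum_lie, Finset.sum_smul]
    refine Finset.sum_congr rfl fun j _ => ?_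
    rw [smul_lie, S.act, smul_smul]
  obtain ⟨c', hc'⟩ := S.rat_coord hz (c := c) fun i => hs.rat _ _ (b.ne_zero i) (h2 i)
  refine ⟨c', ?_⟩
  rw [← hc]
  unfold T
  exact Finset.sum_congr rfl fun j _ => by rw [hc']

end Sys

end Vale.Agent.P092.H45.Rp
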