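import Vale.Agent.P092.H45.Rp.B
import Mathlib.Algebra.Module.Submodule.Union

/-!
P092, project RP (helper45), row P6 (torus, roots), part 3: Killing form, coroots, strings.
-/

set_option linter.all false

open Module LieAlgebra Matrix

namespace Vale.Agent.P092.H45.Rp

open Vale.Agent.P092.H213.Rp

variable {k L : Type} [Field k] [CharZero k] [LieRing L] [LieAlgebra k L] {n r : ℕ}
  {b : Basis (Fin n) k L} {s : Fin r → L} {l : Fin n → Fin r → ℚ}

theorem cen_zero [Module.Finite k L] [IsKilling k L] (x : L) (h : ∀ y : L, ⁅x, y⁆ = 0) : x = 0 := by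
  refine (IsKilling.killingForm_nondegenerate k L).1 x fun y => ?_
  rw [killingForm_apply_apply]
  have : ad k L x = 0 := LinearMap.ext h
  rw [this, LinearMap.zero_comp, map_zero]

/-- the input of the Jacobson-Morozov row -/
def JM (k L : Type) [Field k] [LieRing L] [LieAlgebra k L] : Prop :=
  ∀ s : L, Dg k s → ∀ (c : k) (x : L), ⁅s, x⁆ = c • x → Nil k x → x ≠ 0 →
    ∃ h y, IsSl2Triple h x y ∧ ⁅s, h⁆ = 0 ∧ ⁅s, y⁆ = -(c • y) ∧ Spl k h

/-- the rational form -/
def Q (l : Fin n → Fin r → ℚ) (c c' : Fin r → ℚ) : ℚ := ∑ i, (c ⬝ᵥ l i) * (c' ⬝ᵥ l i)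

theorem Q_comm (c c' : Fin r → ℚ) : Q l c c' = Q l c' c :=
  Finset.sum_congr rfl fun i _ => mul_comm _ _

theorem V_pow {m m' : Fin r → ℚ} {x y : L} (hx : x ∈ V k s m) (hy : y ∈ V k s m') (N : ℕ) :
    ((ad k L x) ^ N) y ∈ V k s (m' + N • m) := by
  induction N with
  | zero => simpa using hy
  | succ N ih =>
    rw [pow_succ', Module.End.mul_apply]
    have := V_lie hx ih
    rw [succ_nsmul]
    have e : m' + (N • m + m) = m + (m' + N • m) := by abel
    rw [e]
    exact this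

/-- a primitive vector has nonnegative weight -/
theorem prim [Module.Finite k L] {h x y : L} (t : IsSl2Triple h x y) {z : L} (hz : z ≠ 0) {q : ℚ}
    (h1 : ⁅h, z⁆ = (q : k) • z) (h2 : ⁅x, z⁆ = 0) : 0 ≤ q := by
  have hp : t.HasPrimitiveVectorWith z (q : k) := ⟨hz, h1, h2⟩
  obtain ⟨N, hN⟩ := hp.exists_nat
  have : q = (N : ℚ) := Rat.cast_injective (by rw [hN, Rat.cast_natCast] : (q : k) = ((N : ℚ) : k))
  rw [this]
  positivity

/-- generic elements of the torus -/
structure Gen (l : Fin n → Fin r → ℚ) (g : Fin r → ℚ) : Prop where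
  ne : ∀ i, l i ≠ 0 → g ⬝ᵥ l i ≠ 0
  sub : ∀ i i', g ⬝ᵥ l i = g ⬝ᵥ l i' → l i = l i'
  add : ∀ i i', g ⬝ᵥ l i = -(g ⬝ᵥ l i') → l i = -l i'

theorem exists_gen (l : Fin n → Fin r → ℚ) : ∃ g, Gen l g := by
  classical
  let D : Set (Fin r → ℚ) := Set.range l ∪ Set.range (fun p : Fin n × Fin n => l p.1 - l p.2) ∪
    Set.range (fun p : Fin n × Fin n => l p.1 + l p.2)
  have hD : D.Finite := ((Set.finite_range _).union (Set.finite_range _)).union (Set.finite_range _)
  haveI : Finite {v : Fin r → ℚ // v ∈ D ∧ v ≠ 0} :=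
    Set.Finite.to_subtype (hD.subset fun v hv => hv.1)
  obtain ⟨f, hf⟩ := Module.exists_dual_forall_apply_ne_zero (K := ℚ)
    (fun v : {v : Fin r → ℚ // v ∈ D ∧ v ≠ 0} => v.1) (fun v => v.2.2)
  let g : Fin r → ℚ := fun j => f (Pi.single j 1)
  have hg : ∀ v, f v = g ⬝ᵥ v := by
    intro v
    rw [LinearMap.pi_apply_eq_sum_univ f v, dotProduct]
    refine Finset.sum_congr rfl fun j _ => ?_
    rw [smul_eq_mul, mul_comm]
    congr 2
    funext i
    rw [Pi.single_apply]
    by_cases h : i = j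
    · subst h; simp
    · rw [if_neg h, if_neg (Ne.symm h)]
  have hne : ∀ v ∈ D, g ⬝ᵥ v = 0 → v = 0 := by
    intro v hv h0
    by_contra h1
    exact hf ⟨v, hv, h1⟩ (by rw [hg]; exact h0)
  refine ⟨g, fun i hi h0 => hi (hne _ (Or.inl (Or.inl ⟨i, rfl⟩)) h0), fun i i' h => ?_,
    fun i i' h => ?_⟩
  · have := hne (l i - l i') (Or.inl (Or.inr ⟨(i, i'), rfl⟩)) (by rw [dotProduct_sub, h, sub_self])
    exact sub_eq_zero.1 this
  · have := hne (l i + l i') (Or.inr ⟨(i, i'), rfl⟩) (by rw [dotProduct_add, h]; ring)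
    exact eq_neg_of_add_eq_zero_left this

namespace Sys

variable (S : Sys b s l)
include S

theorem nil {m : Fin r → ℚ} (hm : m ≠ 0) {x : L} (hx : x ∈ V k s m) : Nil k x := by
  have h1 : ∀ i, ∃ N : ℕ, ((ad k L x) ^ N) (b i) = 0 := by
    intro i
    by_contra hcon
    push Not at hcon
    have h2 : ∀ N : ℕ, ∃ i', l i' = l i + N • m := fun N =>
      S.exists_idx (V_pow hx (S.mem i) N) (hcon N)
    choose f hf using h2
    have h3 : Function.Injective f := by
      intro N N' h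
      have h4 : N • m = N' • m := by
        have := hf N
        rw [h, hf N'] at this
        exact (add_left_cancel this).symm
      by_contra hne
      refine hm (funext fun j => ?_)
      have h5 := congrFun h4 j
      rw [Pi.smul_apply, Pi.smul_apply, nsmul_eq_mul, nsmul_eq_mul] at h5
      rw [Pi.zero_apply]
      by_contra h6
      exact hne (by exact_mod_cast mul_right_cancel₀ h6 h5)
    exact not_injective_infinite_finite f h3
  choose N hN using h1
  refine ⟨∑ i, N i, b.ext fun i => ?_⟩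
  have h2 : ∑ i, N i = (∑ i, N i - N i) + N i :=
    (Nat.sub_add_cancel (Finset.single_le_sum (fun _ _ => Nat.zero_le _) (Finset.mem_univ i))).symm
  rw [h2, pow_add, Module.End.mul_apply, hN, map_zero, LinearMap.zero_apply]

theorem repr_T (c : Fin r → ℚ) (y : L) (i : Fin n) :
    b.repr ⁅T k s c, y⁆ i = ((c ⬝ᵥ l i : ℚ) : k) * b.repr y i := by
  have h : (b.coord i) ∘ₗ ((ad k L (T k s c)) : L →ₗ[k] L) = ((c ⬝ᵥ l i : ℚ) : k) • b.coord i := by
    refine b.ext fun i' => ?_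
    change b.repr ⁅T k s c, b i'⁆ i = ((c ⬝ᵥ l i : ℚ) : k) • b.repr (b i') i
    rw [S.T_lie_basis, map_smul, Finsupp.smul_apply, Basis.repr_self, smul_eq_mul, smul_eq_mul]
    by_cases hi : i' = i
    · subst hi; rfl
    · rw [Finsupp.single_eq_of_ne (Ne.symm hi), mul_zero, mul_zero]
  exact LinearMap.congr_fun h y

theorem hom (g : Fin r → ℚ) {y : L} {q : ℚ} (hy : ⁅T k s g, y⁆ = (q : k) • y) {m : Fin r → ℚ}
    (hq : ∀ i, g ⬝ᵥ l i = q → l i = m) : y ∈ V k s m := by
  refine S.mem_iff.2 fun i hi => ?_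
  by_contra h0
  refine hi (hq i ?_)
  have h1 := S.repr_T g y i
  rw [hy, map_smul, Finsupp.smul_apply, smul_eq_mul] at h1
  exact (Rat.cast_injective (mul_right_cancel₀ h0 h1)).symm

theorem kil (c c' : Fin r → ℚ) :
    killingForm k L (T k s c) (T k s c') = ((Q l c c' : ℚ) : k) := by
  rw [killingForm_apply_apply, LinearMap.trace_eq_matrix_trace k b, Matrix.trace, Q, Rat.cast_sum]
  refine Finset.sum_congr rfl fun i _ => ?_
  rw [Matrix.diag_apply, LinearMap.toMatrix_apply]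
  change b.repr ⁅T k s c, ⁅T k s c', b i⁆⁆ i = _
  rw [S.repr_T, S.repr_T, Basis.repr_self, Finsupp.single_eq_same, mul_one, Rat.cast_mul]

theorem Q_pos (hz : ∀ x : L, (∀ y : L, ⁅x, y⁆ = 0) → x = 0) {c : Fin r → ℚ} (hc : c ≠ 0) :
    0 < Q l c c := by
  refine lt_of_le_of_ne (Finset.sum_nonneg fun i _ => mul_self_nonneg _) fun h0 => hc ?_
  refine S.sepQ hz fun i => ?_
  exact mul_self_eq_zero.1
    ((Finset.sum_eq_zero_iff_of_nonneg fun i _ => mul_self_nonneg _).1 h0.symm i (Finset.mem_univ i))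

/-- **coroots** -/
theorem triple (hz : ∀ x : L, (∀ y : L, ⁅x, y⁆ = 0) → x = 0) (hJ : JM k L) {g : Fin r → ℚ}
    (hg : Gen l g) {m : Fin r → ℚ} {x : L} (hx : x ∈ V k s m) (h0 : x ≠ 0) (hn : Nil k x) :
    ∃ (c : Fin r → ℚ) (y : L), y ∈ V k s (-m) ∧ IsSl2Triple (T k s c) x y ∧ Spl k (T k s c) ∧
      c ⬝ᵥ m = 2 := by
  obtain ⟨i, hi⟩ := S.exists_idx hx h0
  obtain ⟨h, y, ht, h1, h2, h3⟩ := hJ (T k s g) (S.dg g) ((g ⬝ᵥ m : ℚ) : k) x (T_act g m hx) hn h0
  have hh : h ∈ V k s 0 := by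
    refine S.hom g (q := 0) (by rw [h1, Rat.cast_zero, zero_smul]) fun i' hi' => ?_
    by_contra hne
    exact hg.ne i' hne hi'
  have hy : y ∈ V k s (-m) := by
    refine S.hom g (q := -(g ⬝ᵥ m)) (by rw [h2, Rat.cast_neg, neg_smul]) fun i' hi' => ?_
    rw [← hi] at hi' ⊢
    exact hg.add i' i hi'
  obtain ⟨c, rfl⟩ := S.mem_T hz hh h3
  refine ⟨c, y, hy, ht, h3, ?_⟩
  have h4 : ((c ⬝ᵥ m : ℚ) : k) • x = (2 : k) • x := by
    rw [← T_act c m hx]
    have := ht.lie_h_e_smul (R := k)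
    exact this
  have h5 : (((c ⬝ᵥ m : ℚ) : k) - 2) • x = 0 := by rw [sub_smul, h4, sub_self]
  have h6 := (smul_eq_zero.1 h5).resolve_right h0
  have h7 : ((c ⬝ᵥ m : ℚ) : k) = ((2 : ℚ) : k) := by rw [sub_eq_zero.1 h6]; norm_num
  exact Rat.cast_injective h7

/-- the coroot is proportional to the root -/
theorem prop {m c : Fin r → ℚ} {x y : L} (hx : x ∈ V k s m)
    (hy : y ∈ V k s (-m)) (ht : IsSl2Triple (T k s c) x y) (c' : Fin r → ℚ) :
    2 * Q l c c' = (c' ⬝ᵥ m) * Q l c c := by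
  have key : ∀ c' : Fin r → ℚ, ((Q l c c' : ℚ) : k) =
      ((c' ⬝ᵥ m : ℚ) : k) * killingForm k L x y := by
    intro c'
    rw [← S.kil, ← ht.lie_e_f, LieModule.traceForm_apply_lie_apply]
    have h1 : ⁅y, T k s c'⁆ = ((c' ⬝ᵥ m : ℚ) : k) • y := by
      rw [← lie_skew, T_act c' (-m) hy, dotProduct_neg, Rat.cast_neg, neg_smul, neg_neg]
    rw [h1, map_smul, smul_eq_mul]
  have h2 : c ⬝ᵥ m = 2 ∨ x = 0 := by
    by_cases h0 : x = 0
    · exact Or.inr h0
    · left
      have h4 : ((c ⬝ᵥ m : ℚ) : k) • x = (2 : k) • x := by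
        rw [← T_act c m hx]
        have := ht.lie_h_e_smul (R := k)
        exact this
      have h5 : (((c ⬝ᵥ m : ℚ) : k) - 2) • x = 0 := by rw [sub_smul, h4, sub_self]
      have h6 := (smul_eq_zero.1 h5).resolve_right h0
      have h7 : ((c ⬝ᵥ m : ℚ) : k) = ((2 : ℚ) : k) := by rw [sub_eq_zero.1 h6]; norm_num
      exact Rat.cast_injective h7
  have h3 : ((Q l c c : ℚ) : k) = 2 * killingForm k L x y := by
    rcases h2 with h2 | h2
    · rw [key, h2]; norm_num
    · rw [key, h2]; simp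
  have h4 : ((2 * Q l c c' : ℚ) : k) = (((c' ⬝ᵥ m) * Q l c c : ℚ) : k) := by
    rw [Rat.cast_mul, Rat.cast_mul, key c', h3]
    push_cast
    ring
  exact Rat.cast_injective h4

theorem orth {m m' : Fin r → ℚ} {x y : L} (hx : x ∈ V k s m) (hy : y ∈ V k s m')
    (h : killingForm k L x y ≠ 0) : m' = -m := by
  funext j
  have h1 : killingForm k L ⁅s j, x⁆ y = -killingForm k L x ⁅s j, y⁆ :=
    LieModule.traceForm_apply_lie_apply' k L L (s j) x y
  rw [hx j, hy j, map_smul, LinearMap.smul_apply, map_smul, smul_eq_mul, smul_eq_mul,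
    ← neg_mul] at h1
  have h2 := mul_right_cancel₀ h h1
  rw [← Rat.cast_neg] at h2
  have h3 := Rat.cast_injective h2
  rw [Pi.neg_apply, h3, neg_neg]

/-- the weight spaces of `m` and `-m` are in duality -/
theorem pairing [Module.Finite k L] [IsKilling k L] {m : Fin r → ℚ} {x : L} (hx : x ∈ V k s m)
    (h0 : x ≠ 0) : ∃ i, l i = -m ∧ killingForm k L x (b i) ≠ 0 := by
  by_contra hcon
  push Not at hcon
  refine h0 ((IsKilling.killingForm_nondegenerate k L).1 x fun y => ?_)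
  rw [← b.sum_repr y, map_sum]
  refine Finset.sum_eq_zero fun i _ => ?_
  rw [map_smul]
  by_cases hi : killingForm k L x (b i) = 0
  · rw [hi, smul_zero]
  · exact absurd (hcon i (S.orth hx (S.mem i) hi)) hi

theorem neg_root [Module.Finite k L] [IsKilling k L] (i : Fin n) : ∃ i', l i' = -l i := by
  obtain ⟨i', h, -⟩ := S.pairing (S.mem i) (b.ne_zero i)
  exact ⟨i', h⟩

/-- strings: raising is surjective onto positive weights -/
theorem surj [Module.Finite k L] [IsKilling k L] {c m m' : Fin r → ℚ} {x y : L} (hx : x ∈ V k s m)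
    (ht : IsSl2Triple (T k s c) x y) (hc : 0 < c ⬝ᵥ m') {v : L} (hv : v ∈ V k s m') :
    ∃ u ∈ V k s (m' - m), v = ⁅x, u⁆ := by
  classical
  by_contra hcon
  have hA : v ∉ (V k s (m' - m)).map ((ad k L x) : L →ₗ[k] L) := by
    rintro ⟨u, hu, huv⟩
    exact hcon ⟨u, hu, huv.symm⟩
  obtain ⟨f, hf, hfA⟩ := Submodule.exists_dual_map_eq_bot_of_notMem hA inferInstance
  obtain ⟨z, hz⟩ : ∃ z, ∀ w, killingForm k L z w = f w := by
    have hnd := IsKilling.killingForm_nondegenerate k L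
    exact ⟨(LinearMap.BilinForm.toDual (killingForm k L) hnd).symm f, fun w => by
      have := LinearMap.BilinForm.apply_toDual_symm_apply (B := killingForm k L) (hB := hnd) f w
      exact this⟩
  let z' : L := ∑ i ∈ Finset.univ.filter (fun i => l i = -m'), b.repr z i • b i
  have hz'V : z' ∈ V k s (-m') := by
    refine Submodule.sum_mem _ fun i hi => Submodule.smul_mem _ _ ?_
    rw [← (Finset.mem_filter.1 hi).2]
    exact S.mem i
  have hz' : ∀ w ∈ V k s m', killingForm k L z' w = f w := by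
    intro w hw
    rw [← hz w]
    conv_rhs => rw [← b.sum_repr z]
    rw [map_sum, map_sum, LinearMap.sum_apply, LinearMap.sum_apply]
    refine Finset.sum_subset (Finset.subset_univ _) fun i _ hi => ?_
    rw [map_smul, LinearMap.smul_apply]
    by_contra h1
    refine hi (Finset.mem_filter.2 ⟨Finset.mem_univ i, ?_⟩)
    have h2 : killingForm k L (b i) w ≠ 0 := fun h3 => h1 (by rw [h3, smul_zero])
    have h3 := S.orth (S.mem i) hw h2
    rw [h3, neg_neg]
  have hz0 : z' ≠ 0 := by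
    intro h0
    refine hf ?_
    rw [← hz' v hv, h0, map_zero, LinearMap.zero_apply]
  have hbr : ⁅x, z'⁆ = 0 := by
    by_contra h1
    have h2 : ⁅x, z'⁆ ∈ V k s (m + -m') := V_lie hx hz'V
    obtain ⟨i, hi, h3⟩ := S.pairing h2 h1
    have hu : b i ∈ V k s (m' - m) := by
      have : m' - m = l i := by rw [hi]; abel
      rw [this]; exact S.mem i
    have h4 : ⁅x, b i⁆ ∈ V k s m' := by
      have := V_lie hx hu
      have e : m + (m' - m) = m' := by abel
      rwa [e] at this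
    have h5 : f ⁅x, b i⁆ = 0 := by
      have : f ⁅x, b i⁆ ∈ ((V k s (m' - m)).map ((ad k L x) : L →ₗ[k] L)).map f :=
        ⟨_, ⟨_, hu, rfl⟩, rfl⟩
      rw [hfA] at this
      exact (Submodule.mem_bot k).1 this
    refine h3 ?_
    rw [LieModule.traceForm_apply_lie_apply' k L L x z' (b i), hz' _ h4, h5, neg_zero]
  have h6 := prim ht hz0 (q := c ⬝ᵥ (-m')) (T_act c (-m') hz'V) hbr
  rw [dotProduct_neg] at h6
  linarith

end Sys

end Vale.Agent.P092.H45.Rp
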