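import Vale.Agent.P092.H45.Rp.C
import Mathlib.Algebra.Group.Irreducible.Indecomposable
import Mathlib.LinearAlgebra.QuadraticForm.Dual
import Mathlib.LinearAlgebra.Matrix.DotProduct

/-!
P092, project RP (helper45), row P6 (torus, roots), part 4: simple roots.
-/

set_option linter.all false

open Module LieAlgebra Matrix

namespace Vale.Agent.P092.H45.Rp

open Vale.Agent.P092.H213.Rp

variable {k L : Type} [Field k] [CharZero k] [LieRing L] [LieAlgebra k L] {n r : ℕ}
  {b : Basis (Fin n) k L} {s : Fin r → L} {l : Fin n → Fin r → ℚ}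

/-- the form `Q`, bundled -/
def QB (l : Fin n → Fin r → ℚ) : LinearMap.BilinForm ℚ (Fin r → ℚ) :=
  LinearMap.mk₂ ℚ (Q l)
    (fun x y z => by
      unfold Q
      rw [← Finset.sum_add_distrib]
      exact Finset.sum_congr rfl fun i _ => by rw [add_dotProduct, add_mul])
    (fun a x y => by
      unfold Q
      rw [smul_eq_mul, Finset.mul_sum]
      exact Finset.sum_congr rfl fun i _ => by rw [smul_dotProduct, smul_eq_mul, mul_assoc])
    (fun x y z => by
      unfold Q
      rw [← Finset.sum_add_distrib]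
      exact Finset.sum_congr rfl fun i _ => by rw [add_dotProduct, mul_add])
    (fun a x y => by
      unfold Q
      rw [smul_eq_mul, Finset.mul_sum]
      exact Finset.sum_congr rfl fun i _ => by rw [smul_dotProduct, smul_eq_mul]; ring)

theorem QB_apply (c c' : Fin r → ℚ) : QB l c c' = Q l c c' := rfl

/-- the linear combination of the simple roots -/
def comb {r' : ℕ} (α : Fin r' → Fin r → ℚ) (μ : Fin r' → ℤ) : Fin r → ℚ := ∑ a, (μ a : ℚ) • α a

theorem comb_add {r' : ℕ} (α : Fin r' → Fin r → ℚ) (μ ν : Fin r' → ℤ) :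
    comb α (μ + ν) = comb α μ + comb α ν := by
  unfold comb
  rw [← Finset.sum_add_distrib]
  exact Finset.sum_congr rfl fun a _ => by rw [Pi.add_apply, Int.cast_add, add_smul]

theorem comb_neg {r' : ℕ} (α : Fin r' → Fin r → ℚ) (μ : Fin r' → ℤ) :
    comb α (-μ) = -comb α μ := by
  unfold comb
  rw [← Finset.sum_neg_distrib]
  exact Finset.sum_congr rfl fun a _ => by rw [Pi.neg_apply, Int.cast_neg, neg_smul]

theorem comb_single {r' : ℕ} (α : Fin r' → Fin r → ℚ) (a : Fin r') :
    comb α (Pi.single a 1) = α a := by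
  unfold comb
  rw [Finset.sum_eq_single a]
  · rw [Pi.single_eq_same, Int.cast_one, one_smul]
  · intro j _ hj
    rw [Pi.single_eq_of_ne hj, Int.cast_zero, zero_smul]
  · intro h; exact absurd (Finset.mem_univ _) h

theorem dot_comb {r' : ℕ} (α : Fin r' → Fin r → ℚ) (μ : Fin r' → ℤ) (c : Fin r → ℚ) :
    c ⬝ᵥ comb α μ = ∑ a, (μ a : ℚ) * (c ⬝ᵥ α a) := by
  unfold comb
  rw [dotProduct_sum]
  exact Finset.sum_congr rfl fun a _ => by rw [dotProduct_smul, smul_eq_mul]

/-- Simple roots: what is needed of them. -/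
structure SR {n r r' : ℕ} (b : Basis (Fin n) k L) (s : Fin r → L) (l : Fin n → Fin r → ℚ)
    (α c w : Fin r' → Fin r → ℚ) (E F : Fin r' → L) (wt : Fin n → Fin r' → ℤ) : Prop where
  pos : 0 < r'
  dual : ∀ a a', w a ⬝ᵥ α a' = if a = a' then 1 else 0
  wtl : ∀ i, l i = comb α (wt i)
  sgn : ∀ i, (∀ a, 0 ≤ wt i a) ∨ (∀ a, wt i a ≤ 0)
  mE : ∀ a, E a ∈ V k s (α a)
  mF : ∀ a, F a ∈ V k s (-α a)
  tri : ∀ a, IsSl2Triple (T k s (c a)) (E a) (F a)
  int : ∀ a a', ∃ z : ℤ, (z : ℚ) = c a ⬝ᵥ α a'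

namespace Sys

variable (S : Sys b s l)
include S

/-- **Simple roots exist.** -/
theorem exists_simple [Module.Finite k L] [IsKilling k L] (hJ : JM k L) (hr : 0 < r) :
    ∃ (r' : ℕ) (α c w : Fin r' → Fin r → ℚ) (E F : Fin r' → L) (wt : Fin n → Fin r' → ℤ),
      SR b s l α c w E F wt := by
  classical
  have hz := cen_zero (k := k) (L := L)
  obtain ⟨g, hg⟩ := exists_gen l
  let f : (Fin r → ℚ) →+ ℚ :=
    { toFun := fun v => g ⬝ᵥ v
      map_zero' := dotProduct_zero g
      map_add' := fun v w => dotProduct_add g v w }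
  have hf : ∀ v, f v = g ⬝ᵥ v := fun v => rfl
  let Bs := IsAddIndecomposable.baseOf l f
  have hBpos : ∀ i ∈ Bs, 0 < g ⬝ᵥ l i := fun i hi => hi.1
  have hBne : ∀ i ∈ Bs, l i ≠ 0 := fun i hi h0 => by
    have := hBpos i hi
    rw [h0, dotProduct_zero] at this
    exact lt_irrefl _ this
  have hBind : ∀ i ∈ Bs, ∀ i' i'', 0 < g ⬝ᵥ l i' → 0 < g ⬝ᵥ l i'' → l i ≠ l i' + l i'' := by
    intro i hi i' i'' h1 h2 h3
    rcases hi.2 i' h1 i'' h2 h3 with h4 | h4
    · rw [h4, dotProduct_zero] at h1; exact lt_irrefl _ h1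
    · rw [h4, dotProduct_zero] at h2; exact lt_irrefl _ h2
  let Sim : Set (Fin r → ℚ) := l '' Bs
  haveI : Finite Sim := Set.Finite.to_subtype ((Set.toFinite Bs).image l)
  obtain ⟨r', ⟨e⟩⟩ := Finite.exists_equiv_fin Sim
  let α : Fin r' → Fin r → ℚ := fun j => (e.symm j).1
  have hα : ∀ j, α j ∈ Sim := fun j => (e.symm j).2
  have hinj : ∀ i j, α i = α j → i = j := fun i j hij => e.symm.injective (Subtype.ext hij)
  choose ia hiaB hia using hα
  have htr : ∀ j, ∃ (c : Fin r → ℚ) (y : L), y ∈ V k s (-α j) ∧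
      IsSl2Triple (T k s c) (b (ia j)) y ∧ Spl k (T k s c) ∧ c ⬝ᵥ α j = 2 := by
    intro j
    have hm : b (ia j) ∈ V k s (α j) := by rw [← hia j]; exact S.mem _
    have h0 : α j ≠ 0 := by rw [← hia j]; exact hBne _ (hiaB j)
    exact S.triple hz hJ hg hm (b.ne_zero _) (S.nil h0 hm)
  choose c y hy htri hspl hc2 using htr
  have hE : ∀ j, b (ia j) ∈ V k s (α j) := fun j => by rw [← hia j]; exact S.mem _
  have hpos : ∀ j, 0 < g ⬝ᵥ α j := fun j => by rw [← hia j]; exact hBpos _ (hiaB j)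
  have hcne : ∀ j, c j ≠ 0 := fun j h0 => by
    have := hc2 j
    rw [h0, zero_dotProduct] at this
    norm_num at this
  have hQ : ∀ j, 0 < Q l (c j) (c j) := fun j => S.Q_pos hz (hcne j)
  have hprop : ∀ j c', 2 * Q l (c j) c' = (c' ⬝ᵥ α j) * Q l (c j) (c j) := fun j c' =>
    S.prop (hE j) (hy j) (htri j) c'
  -- obtuse angles
  have hob : ∀ j j', j ≠ j' → c j ⬝ᵥ α j' ≤ 0 := by
    intro j j' hjj
    by_contra hcon
    push Not at hcon
    have h1 : ⁅y j, b (ia j')⁆ ≠ 0 := by
      intro h1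
      have h3 : ⁅-T k s (c j), b (ia j')⁆ = ((-(c j ⬝ᵥ α j') : ℚ) : k) • b (ia j') := by
        rw [neg_lie, T_act (k := k) (c j) (α j') (hE j'), Rat.cast_neg, neg_smul]
      have h2 := prim (k := k) (htri j).symm (b.ne_zero (ia j')) h3 h1
      linarith
    obtain ⟨i, hi⟩ := S.exists_idx (V_lie (hy j) (hE j')) h1
    rcases lt_trichotomy (g ⬝ᵥ l i) 0 with h2 | h2 | h2
    · obtain ⟨i', hi'⟩ := S.neg_root i
      refine hBind (ia j) (hiaB j) (ia j') i' (by rw [hia]; exact hpos j') ?_ ?_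
      · rw [hi', dotProduct_neg]; linarith
      · rw [hi', hi, hia, hia]; abel
    · have h3 : α j = α j' := by
        have h4 := hg.sub (ia j) (ia j') (by
          rw [hia, hia]
          rw [hi, dotProduct_add, dotProduct_neg] at h2
          linarith)
        rwa [hia, hia] at h4
      exact hjj (hinj _ _ h3)
    · refine hBind (ia j') (hiaB j') (ia j) i (by rw [hia]; exact hpos j) h2 ?_
      rw [hi, hia, hia]; abel
  -- independence
  have hli : LinearIndependent ℚ c := by
    refine LinearMap.BilinForm.linearIndependent_of_pairwise_le_zero (QB l) ?_ (QB l g) c ?_ ?_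
    · intro x hx
      exact S.Q_pos hz hx
    · intro j
      change 0 < Q l g (c j)
      rw [Q_comm]
      have h1 := hprop j g
      have h2 := mul_pos (hpos j) (hQ j)
      linarith
    · intro j j' hjj
      change Q l (c j) (c j') ≤ 0
      have h1 := hprop j (c j')
      have h2 := mul_nonpos_of_nonpos_of_nonneg (hob j' j (Ne.symm hjj)) (hQ j).le
      linarith
  -- closure
  have hcl : ∀ i, 0 < g ⬝ᵥ l i → l i ∈ AddSubmonoid.closure Sim := by
    intro i hi
    have h1 := AddSubmonoid.closure_image_isAddIndecomposable_baseOf l f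
    change l i ∈ AddSubmonoid.closure (l '' IsAddIndecomposable.baseOf l f)
    rw [h1]
    exact AddSubmonoid.subset_closure ⟨i, hi, rfl⟩
  -- evaluation
  let ev : (Fin r → ℚ) →ₗ[ℚ] (Fin r' → ℚ) := LinearMap.pi fun j =>
    { toFun := fun x => x ⬝ᵥ α j
      map_add' := fun x x' => add_dotProduct _ _ _
      map_smul' := fun q x => smul_dotProduct _ _ _ }
  have hev : ∀ x j, ev x j = x ⬝ᵥ α j := fun x j => rfl
  have hker : ∀ x, ev x = 0 → x = 0 := by
    intro x hx
    have h1 : ∀ v ∈ AddSubmonoid.closure Sim, x ⬝ᵥ v = 0 := by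
      intro v hv
      induction hv using AddSubmonoid.closure_induction with
      | mem v hv =>
        have h2 := congrFun hx (e ⟨v, hv⟩)
        rw [hev] at h2
        have h3 : α (e ⟨v, hv⟩) = v := by
          change (e.symm (e ⟨v, hv⟩)).1 = v
          rw [Equiv.symm_apply_apply]
        rw [h3] at h2
        exact h2
      | zero => exact dotProduct_zero x
      | add u v _ _ hu hv => rw [dotProduct_add, hu, hv, add_zero]
    refine S.sepQ hz fun i => ?_
    rcases lt_trichotomy (g ⬝ᵥ l i) 0 with h2 | h2 | h2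
    · obtain ⟨i', hi'⟩ := S.neg_root i
      have h3 := h1 (l i') (hcl i' (by rw [hi', dotProduct_neg]; linarith))
      rw [hi', dotProduct_neg] at h3
      linarith
    · have h3 : l i = 0 := by
        by_contra h4
        exact hg.ne i h4 h2
      rw [h3, dotProduct_zero]
    · exact h1 _ (hcl i h2)
  have hinj' : Function.Injective ev := by
    rw [← LinearMap.ker_eq_bot, LinearMap.ker_eq_bot']
    exact hker
  have hfr : finrank ℚ (Fin r → ℚ) = finrank ℚ (Fin r' → ℚ) := by
    refine le_antisymm (LinearMap.finrank_le_finrank_of_injective hinj') ?_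
    have h1 := hli.fintype_card_le_finrank
    rwa [finrank_fin_fun, ← Fintype.card_fin r']
  have hsurj : Function.Surjective ev :=
    (LinearMap.injective_iff_surjective_of_finrank_eq_finrank hfr).1 hinj'
  choose w hw using fun j : Fin r' => hsurj (Pi.single j 1)
  have hw' : ∀ a a', w a ⬝ᵥ α a' = if a = a' then 1 else 0 := by
    intro a a'
    rw [← hev, hw, Pi.single_apply]
    by_cases h : a = a'
    · subst h; simp
    · rw [if_neg h, if_neg (Ne.symm h)]
  have hexp : ∀ x : Fin r → ℚ, x = ∑ j, (x ⬝ᵥ α j) • w j := by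
    intro x
    refine hinj' ?_
    funext j'
    rw [hev, hev, sum_dotProduct]
    rw [Finset.sum_eq_single j']
    · rw [smul_dotProduct, hw', if_pos rfl, smul_eq_mul, mul_one]
    · intro j _ hj
      rw [smul_dotProduct, hw', if_neg hj, smul_eq_mul, mul_zero]
    · intro h; exact absurd (Finset.mem_univ _) h
  have hexp' : ∀ v : Fin r → ℚ, v = ∑ j, (w j ⬝ᵥ v) • α j := by
    intro v
    refine dotProduct_eq _ _ fun x => ?_
    rw [dotProduct_comm, dotProduct_comm _ x, dotProduct_sum]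
    conv_lhs => rw [hexp x]
    rw [sum_dotProduct]
    refine Finset.sum_congr rfl fun j _ => ?_
    rw [smul_dotProduct, dotProduct_smul, smul_eq_mul, smul_eq_mul, mul_comm]
  have hnat : ∀ v ∈ AddSubmonoid.closure Sim, ∃ N : Fin r' → ℕ, ∀ a, w a ⬝ᵥ v = N a := by
    intro v hv
    induction hv using AddSubmonoid.closure_induction with
    | mem v hv =>
      refine ⟨Pi.single (e ⟨v, hv⟩) 1, fun a => ?_⟩
      have h3 : α (e ⟨v, hv⟩) = v := by
        change (e.symm (e ⟨v, hv⟩)).1 = v
        rw [Equiv.symm_apply_apply]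
      have h4 : w a ⬝ᵥ v = if a = e ⟨v, hv⟩ then 1 else 0 := by
        rw [← hw' a (e ⟨v, hv⟩), h3]
      rw [h4, Pi.single_apply]
      by_cases h : a = e ⟨v, hv⟩
      · rw [if_pos h, if_pos h, Nat.cast_one]
      · rw [if_neg h, if_neg h, Nat.cast_zero]
    | zero => exact ⟨0, fun a => by rw [dotProduct_zero]; simp⟩
    | add u v _ _ hu hv =>
      obtain ⟨N, hN⟩ := hu
      obtain ⟨N', hN'⟩ := hv
      exact ⟨N + N', fun a => by rw [dotProduct_add, hN, hN', Pi.add_apply, Nat.cast_add]⟩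
  have hint : ∀ i, ∃ z : Fin r' → ℤ, (∀ a, (z a : ℚ) = w a ⬝ᵥ l i) ∧
      ((∀ a, 0 ≤ z a) ∨ (∀ a, z a ≤ 0)) := by
    intro i
    rcases lt_trichotomy (g ⬝ᵥ l i) 0 with h2 | h2 | h2
    · obtain ⟨i', hi'⟩ := S.neg_root i
      obtain ⟨N, hN⟩ := hnat (l i') (hcl i' (by rw [hi', dotProduct_neg]; linarith))
      refine ⟨fun a => -(N a : ℤ), fun a => ?_, Or.inr fun a => ?_⟩
      · have := hN a
        rw [hi', dotProduct_neg] at this
        push_cast
        linarith
      · simp
    · have h3 : l i = 0 := by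
        by_contra h4
        exact hg.ne i h4 h2
      exact ⟨0, fun a => by rw [h3, dotProduct_zero]; simp, Or.inl fun a => le_rfl⟩
    · obtain ⟨N, hN⟩ := hnat (l i) (hcl i h2)
      exact ⟨fun a => (N a : ℤ), fun a => by rw [hN a]; push_cast; rfl, Or.inl fun a => by simp⟩
  choose wt hwt hsgn using hint
  refine ⟨r', α, c, w, fun j => b (ia j), y, wt,
  { pos := ?_
    dual := hw'
    wtl := fun i => ?_
    sgn := hsgn
    mE := hE
    mF := hy
    tri := htri
    int := fun a a' => ?_ }⟩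
  · rcases Nat.eq_zero_or_pos r' with h0 | h0
    · exfalso
      subst h0
      have h1 : (Pi.single ⟨0, hr⟩ 1 : Fin r → ℚ) = 0 := hinj' (by funext j; exact j.elim0)
      have h2 := congrFun h1 ⟨0, hr⟩
      rw [Pi.single_eq_same, Pi.zero_apply] at h2
      exact one_ne_zero h2
    · exact h0
  · conv_lhs => rw [hexp' (l i)]
    unfold comb
    exact Finset.sum_congr rfl fun a _ => by rw [hwt]
  · obtain ⟨z, hz'⟩ := (hspl a).int _ _ (b.ne_zero (ia a')) (T_act (c a) (α a') (hE a'))
    refine ⟨z, Rat.cast_injective (α := k) ?_⟩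
    rw [Rat.cast_intCast]
    exact hz'

end Sys

end Vale.Agent.P092.H45.Rp
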