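import Vale.Agent.P092.H45.Rp.D

/-!
P092, project RP (helper45), row P6 (torus, roots), part 5: the structure `Rt`.
-/

set_option linter.all false

open Module LieAlgebra Matrix

namespace Vale.Agent.P092.H45.Rp

open Vale.Agent.P092.H213.Rp

variable {k L : Type} [Field k] [CharZero k] [LieRing L] [LieAlgebra k L] {n r r' : ℕ}
  {b : Basis (Fin n) k L} {s : Fin r → L} {l : Fin n → Fin r → ℚ}
  {α c w : Fin r' → Fin r → ℚ} {E F : Fin r' → L} {wt : Fin n → Fin r' → ℤ}

theorem mem_W {μ : Fin r' → ℤ} {x : L} : x ∈ W b wt μ ↔ ∀ i, wt i ≠ μ → b.repr x i = 0 := by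
  classical
  have e : {x | ∃ i, wt i = μ ∧ b i = x} = b '' {i | wt i = μ} := by
    ext y
    simp [Set.mem_image]
  rw [W, e, Basis.mem_span_image]
  constructor
  · intro h i hi
    by_contra h0
    exact hi (h (Finsupp.mem_support_iff.2 h0))
  · intro h i hi
    by_contra h0
    exact Finsupp.mem_support_iff.1 hi (h i h0)

namespace SR

variable (R : SR b s l α c w E F wt)
include R

theorem dual_comb (μ : Fin r' → ℤ) (a : Fin r') : w a ⬝ᵥ comb α μ = μ a := by
  rw [dot_comb, Finset.sum_eq_single a]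
  · rw [R.dual, if_pos rfl, mul_one]
  · intro j _ hj
    rw [R.dual, if_neg (Ne.symm hj), mul_zero]
  · intro h; exact absurd (Finset.mem_univ _) h

theorem comb_inj {μ ν : Fin r' → ℤ} (h : comb α μ = comb α ν) : μ = ν := by
  funext a
  have h1 := R.dual_comb μ a
  rw [h, R.dual_comb] at h1
  exact (Int.cast_injective h1).symm

theorem mem_WV (S : Sys b s l) {μ : Fin r' → ℤ} {x : L} :
    x ∈ W b wt μ ↔ x ∈ V k s (comb α μ) := by
  rw [mem_W, S.mem_iff]
  refine forall_congr' fun i => ?_
  have : (wt i ≠ μ) ↔ (l i ≠ comb α μ) := by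
    rw [R.wtl i]
    exact not_congr ⟨fun h => by rw [h], fun h => R.comb_inj h⟩
  rw [this]

theorem comb_ne {μ : Fin r' → ℤ} (hμ : μ ≠ 0) : comb α μ ≠ 0 := by
  intro h
  refine hμ (R.comb_inj ?_)
  rw [h]
  unfold comb
  exact (Finset.sum_eq_zero fun a _ => by simp).symm

theorem two [Module.Finite k L] [IsKilling k L] (a : Fin r') : c a ⬝ᵥ α a = 2 := by
  have ht := R.tri a
  have hx := R.mE a
  have h0 : E a ≠ 0 := fun h => ht.h_ne_zero (by rw [← ht.lie_e_f, h, zero_lie])
  have h4 : ((c a ⬝ᵥ α a : ℚ) : k) • E a = (2 : k) • E a := by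
    rw [← T_act (k := k) (c a) (α a) hx]
    have := ht.lie_h_e_smul (R := k)
    exact this
  have h5 : (((c a ⬝ᵥ α a : ℚ) : k) - 2) • E a = 0 := by rw [sub_smul, h4, sub_self]
  have h6 := (smul_eq_zero.1 h5).resolve_right h0
  have h7 : ((c a ⬝ᵥ α a : ℚ) : k) = ((2 : ℚ) : k) := by rw [sub_eq_zero.1 h6]; norm_num
  exact Rat.cast_injective h7

/-- the weight spaces are generated by the simple ones -/
theorem mem_gen [Module.Finite k L] [IsKilling k L] (S : Sys b s l) (hJ : JM k L)
    (A : LieSubalgebra k L) (h0 : ∀ x ∈ V k s 0, x ∈ A) (hE : ∀ a, E a ∈ A) (hF : ∀ a, F a ∈ A)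
    (N : ℕ) : ∀ μ : Fin r' → ℤ, (∀ a, 0 ≤ μ a) → ∑ a, μ a = N →
      (∀ x ∈ V k s (comb α μ), x ∈ A) ∧ (∀ x ∈ V k s (-comb α μ), x ∈ A) := by
  classical
  have hz := cen_zero (k := k) (L := L)
  obtain ⟨g, hg⟩ := exists_gen l
  have hcne : ∀ j, c j ≠ 0 := fun j h0 => by
    have := R.two j
    rw [h0, zero_dotProduct] at this
    norm_num at this
  induction N with
  | zero =>
    intro μ hμ hs
    have h1 : μ = 0 := by
      funext a
      exact (Finset.sum_eq_zero_iff_of_nonneg (fun a _ => hμ a)).1 (by exact_mod_cast hs) a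
        (Finset.mem_univ a)
    have h2 : comb α μ = 0 := by
      rw [h1]; unfold comb; exact Finset.sum_eq_zero fun a _ => by simp
    rw [h2, neg_zero]
    exact ⟨h0, h0⟩
  | succ N ih =>
    intro μ hμ hs
    have hμ0 : μ ≠ 0 := by
      rintro rfl
      simp at hs
      omega
    have hm0 := R.comb_ne hμ0
    -- a simple root which can be subtracted
    have key : ∀ m : Fin r → ℚ, (m = comb α μ ∨ m = -comb α μ) → ∀ x ∈ V k s m, x ≠ 0 →
        ∃ a, 0 < μ a ∧ 0 < c a ⬝ᵥ comb α μ := by
      intro m hm x hx hx0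
      have hmne : m ≠ 0 := by
        rcases hm with rfl | rfl
        · exact hm0
        · exact neg_ne_zero.2 hm0
      obtain ⟨d, y, hy, ht, -, hd⟩ := S.triple hz hJ hg hx hx0 (S.nil hmne hx)
      have hdne : d ≠ 0 := fun h => by rw [h, zero_dotProduct] at hd; norm_num at hd
      have hQd := S.Q_pos hz hdne
      have hp1 := S.prop hx hy ht
      rcases hm with rfl | rfl
      · rw [dot_comb] at hd
        obtain ⟨a, -, ha⟩ := Finset.exists_lt_of_sum_lt (s := Finset.univ)
          (f := fun _ : Fin r' => (0 : ℚ)) (g := fun a => (μ a : ℚ) * (d ⬝ᵥ α a))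
          (by rw [hd]; simp)
        have hμa : 0 ≤ (μ a : ℚ) := by exact_mod_cast hμ a
        have h1 : 0 < (μ a : ℚ) := lt_of_le_of_ne hμa fun h => by
          rw [← h, zero_mul] at ha; exact lt_irrefl _ ha
        have h2 : 0 < d ⬝ᵥ α a := (mul_pos_iff_of_pos_left h1).1 ha
        refine ⟨a, by exact_mod_cast h1, ?_⟩
        have h3 := S.prop (R.mE a) (R.mF a) (R.tri a) d
        have h4 := hp1 (c a)
        have h5 := mul_pos h2 (S.Q_pos hz (hcne a))
        rw [Q_comm] at h4
        have h6 : 0 < (c a ⬝ᵥ comb α μ) * Q l d d := by linarith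
        exact (mul_pos_iff_of_pos_right hQd).1 h6
      · rw [dotProduct_neg, dot_comb] at hd
        obtain ⟨a, -, ha⟩ := Finset.exists_lt_of_sum_lt (s := Finset.univ)
          (f := fun a => (μ a : ℚ) * (d ⬝ᵥ α a)) (g := fun _ : Fin r' => (0 : ℚ))
          (by simp; linarith)
        have hμa : 0 ≤ (μ a : ℚ) := by exact_mod_cast hμ a
        have h1 : 0 < (μ a : ℚ) := lt_of_le_of_ne hμa fun h => by
          rw [← h, zero_mul] at ha; exact lt_irrefl _ ha
        have h2 : d ⬝ᵥ α a < 0 := by
          by_contra h3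
          push Not at h3
          have := mul_nonneg hμa h3
          linarith
        refine ⟨a, by exact_mod_cast h1, ?_⟩
        have h3 := S.prop (R.mE a) (R.mF a) (R.tri a) d
        have h4 := hp1 (c a)
        have h5 := mul_neg_of_neg_of_pos h2 (S.Q_pos hz (hcne a))
        rw [Q_comm, dotProduct_neg] at h4
        have h6 : 0 < (c a ⬝ᵥ comb α μ) * Q l d d := by linarith
        exact (mul_pos_iff_of_pos_right hQd).1 h6
    have hsub : ∀ a, comb α μ - α a = comb α (μ - Pi.single a 1) := fun a => by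
      rw [sub_eq_add_neg, sub_eq_add_neg, comb_add, comb_neg, comb_single]
    have hih : ∀ a, 0 < μ a → (∀ x ∈ V k s (comb α μ - α a), x ∈ A) ∧
        (∀ x ∈ V k s (-(comb α μ - α a)), x ∈ A) := by
      intro a ha
      rw [hsub]
      refine ih (μ - Pi.single a 1) (fun a' => ?_) ?_
      · rw [Pi.sub_apply, Pi.single_apply]
        split_ifs with h
        · subst h; omega
        · have := hμ a'; omega
      · simp only [Pi.sub_apply]
        rw [Finset.sum_sub_distrib, hs, Finset.sum_pi_single']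
        simp
    constructor
    · intro x hx
      by_cases hx0 : x = 0
      · rw [hx0]; exact A.zero_mem
      obtain ⟨a, ha, hca⟩ := key _ (Or.inl rfl) x hx hx0
      obtain ⟨u, hu, rfl⟩ := S.surj (R.mE a) (R.tri a) hca hx
      exact A.lie_mem (hE a) ((hih a ha).1 u hu)
    · intro x hx
      by_cases hx0 : x = 0
      · rw [hx0]; exact A.zero_mem
      obtain ⟨a, ha, hca⟩ := key _ (Or.inr rfl) x hx hx0
      have ht' : IsSl2Triple (T k s (-c a)) (F a) (E a) := by
        have h1 : T k s (-c a) = -T k s (c a) := by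
          unfold T
          rw [← Finset.sum_neg_distrib]
          exact Finset.sum_congr rfl fun j _ => by rw [Pi.neg_apply, Rat.cast_neg, neg_smul]
        rw [h1]
        exact (R.tri a).symm
      obtain ⟨u, hu, rfl⟩ := S.surj (R.mF a) ht' (by
        rw [neg_dotProduct_neg]; exact hca) hx
      refine A.lie_mem (hF a) ((hih a ha).2 u ?_)
      have e : -(comb α μ - α a) = -comb α μ - -α a := by abel
      rw [e]; exact hu

/-- **Row P6 for a maximal torus with simple roots.** -/
theorem rt [Module.Finite k L] [IsKilling k L] (S : Sys b s l) (hJ : JM k L) :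
    Rt b wt E F (fun a => T k s (c a)) := by
  classical
  have hz := cen_zero (k := k) (L := L)
  obtain ⟨g, hg⟩ := exists_gen l
  have hc0 : comb α (0 : Fin r' → ℤ) = 0 := by
    unfold comb; exact Finset.sum_eq_zero fun a _ => by simp
  exact
  { pos := R.pos
    grad := fun μ ν x hx y hy => by
      rw [R.mem_WV S] at hx hy ⊢
      rw [comb_add]
      exact V_lie hx hy
    sgn := R.sgn
    tri := R.tri
    wE := fun a => by
      rw [R.mem_WV S, comb_single]
      exact R.mE a
    wF := fun a => by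
      rw [R.mem_WV S, comb_neg, comb_single]
      exact R.mF a
    wH := fun a => by
      choose z hz' using R.int a
      refine ⟨z, fun i => ?_⟩
      rw [S.T_lie_basis, R.wtl, dot_comb]
      congr 1
      push_cast
      refine Finset.sum_congr rfl fun j _ => ?_
      rw [← hz' j]
      push_cast
      rfl
    aniso := fun x hx hn => by
      by_contra h0
      rw [R.mem_WV S, hc0] at hx
      obtain ⟨d, y, -, -, -, hd⟩ := S.triple hz hJ hg hx h0 hn
      rw [dotProduct_zero] at hd
      norm_num at hd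
    max := fun x hx hs => by
      rw [R.mem_WV S, hc0] at hx
      obtain ⟨d, rfl⟩ := S.mem_T hz hx hs
      refine ⟨fun a => d ⬝ᵥ α a, fun i => ?_⟩
      rw [S.T_lie_basis, R.wtl, dot_comb]
    pair := fun μ hμ x hx y hy hx0 hy0 h => by
      rw [R.mem_WV S] at hx hy
      rw [comb_neg] at hy
      obtain ⟨d, f, -, ht, -, hd⟩ := S.triple hz hJ hg hx hx0 (S.nil (R.comb_ne hμ) hx)
      have := prim (k := k) ht hy0 (T_act (k := k) d _ hy) h
      rw [dotProduct_neg, hd] at this
      norm_num at this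
    gen := by
      set A := LieSubalgebra.lieSpan k L {x | x ∈ W b wt 0 ∨ ∃ a, x ∈ W b wt (Pi.single a 1) ∨
        x ∈ W b wt (-Pi.single a 1)} with hA
      have hsub : ∀ x, (x ∈ W b wt 0 ∨ ∃ a, x ∈ W b wt (Pi.single a 1) ∨
        x ∈ W b wt (-Pi.single a 1)) → x ∈ A := fun x hx => LieSubalgebra.subset_lieSpan hx
      have h0 : ∀ x ∈ V k s 0, x ∈ A := fun x hx => hsub x (Or.inl (by
        rw [R.mem_WV S, hc0]; exact hx))
      have hE : ∀ a, E a ∈ A := fun a => hsub _ (Or.inr ⟨a, Or.inl (by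
        rw [R.mem_WV S, comb_single]; exact R.mE a)⟩)
      have hF : ∀ a, F a ∈ A := fun a => hsub _ (Or.inr ⟨a, Or.inr (by
        rw [R.mem_WV S, comb_neg, comb_single]; exact R.mF a)⟩)
      have hb : ∀ i, b i ∈ A := by
        intro i
        have hbi : b i ∈ V k s (comb α (wt i)) := by rw [← R.wtl]; exact S.mem i
        rcases R.sgn i with h1 | h1
        · obtain ⟨N, hN⟩ := Int.eq_ofNat_of_zero_le (Finset.sum_nonneg fun a _ => h1 a)
          exact (R.mem_gen S hJ A h0 hE hF N (wt i) h1 hN).1 _ hbi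
        · have h2 : ∀ a, 0 ≤ (-wt i) a := fun a => by
            rw [Pi.neg_apply]; have := h1 a; omega
          obtain ⟨N, hN⟩ := Int.eq_ofNat_of_zero_le (Finset.sum_nonneg fun a _ => h2 a)
          refine (R.mem_gen S hJ A h0 hE hF N (-wt i) h2 hN).2 _ ?_
          rw [comb_neg, neg_neg]
          exact hbi
      rw [eq_top_iff]
      intro x _
      rw [← b.sum_repr x]
      exact sum_mem fun i _ => A.smul_mem _ (hb i) }

end SR

/-- **Row P6**: roots relative to a maximal split torus exist (input: Jacobson-Morozov). -/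
theorem exists_rt [Module.Finite k L] [IsKilling k L] (hJ : JM k L) {x : L} (hx : x ≠ 0)
    (hn : Nil k x) {n : ℕ} (hfin : finrank k L = n) :
    ∃ (r : ℕ) (b : Basis (Fin n) k L) (wt : Fin n → Fin r → ℤ) (E F H : Fin r → L),
      Rt b wt E F H := by
  obtain ⟨h, y, ht, -, -, hs⟩ := hJ 0 (by
    refine dg_of_basis (finBasis k L) fun i => ⟨0, ?_⟩
    rw [zero_lie, zero_smul]) 0 x (by rw [zero_lie, zero_smul]) hn hx
  obtain ⟨r, b, s, l, hr, S⟩ := exists_sys hfin hs ht.h_ne_zero
  obtain ⟨r', α, c, w, E, F, wt, R⟩ := S.exists_simple hJ hr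
  exact ⟨r', b, wt, E, F, _, R.rt S hJ⟩

/-- **Row P6** in the letters of the class. -/
theorem p6_of {k : Type} [NontriviallyNormedField k] [CharZero k] {L : Type} [LieRing L]
    [LieAlgebra k L] (hJ : JM k L) {n : ℕ} {G : Type} [Group G] [TopologicalSpace G]
    {b : Basis (Fin n) k L} {ρ : G →* Module.End k L} (hρ : RP b ρ) :
    ∃ (r : ℕ) (b' : Basis (Fin n) k L) (wt : Fin n → Fin r → ℤ) (E F H : Fin r → L),
      Rt b' wt E F H := by
  haveI : Module.Finite k L := Module.Finite.of_basis b
  haveI := hρ.simple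
  obtain ⟨x, hx, hn⟩ := hρ.iso
  exact exists_rt hJ hx hn (by rw [finrank_eq_card_basis b, Fintype.card_fin])

end Vale.Agent.P092.H45.Rp
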